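import Vale.Agent.N172.Defs
import Vale.Agent.N172.Main

namespace Vale.Agent.Results.P172.A0FixedPoint

open Vale.Agent.P172M11 Vale.Agent.N172

universe u

/-- **An infinite word-hyperbolic group with a global fixed point on every complete CAT(0)
space**, and the same for all its subgroups of finite index. -/
theorem result :
    ∃ (G : Type) (_ : Group G), Infinite G ∧ Group.FG G ∧
      (∀ S : Finset G, Subgroup.closure (S : Set G) = ⊤ → HypGraph S) ∧
      ∀ K : Subgroup G, K.FiniteIndex →
        (∀ (X : Type u) [MetricSpace X] [MulAction K X], Nonempty X → CompleteSpace X →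
          IsCAT (EuclideanSpace ℝ (Fin 2)) X → IsIsometricSMul K X →
          ∃ x : X, ∀ g : K, g • x = x) ∧
        ∀ (Γ : Type) [Group Γ] (φ : K →* Γ) (X : Type u) [MetricSpace X] [MulAction Γ X],
          Nonempty X → CompleteSpace X → IsCAT (EuclideanSpace ℝ (Fin 2)) X →
          IsIsometricSMul Γ X → (∀ x : X, Finite (MulAction.stabilizer Γ x)) → Finite φ.range := by
  obtain ⟨G, _, h1, h2, h3, h4⟩ := Vale.Agent.N172.main.{u}.2
  exact ⟨G, _, h1, h2, h3, fun K hK => ⟨(h4 K hK).1, fun Γ _ φ => ((h4 K hK).2 Γ φ).1⟩⟩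

end Vale.Agent.Results.P172.A0FixedPoint
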