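import Vale.Agent.N172B.Defs
import Vale.Agent.N172B.Main

namespace Vale.Agent.Results.P172.A0TorsionFree

open Vale.Agent.P172 Vale.Agent.P172.H372 Vale.Agent.P186 Vale.Agent.N172B CategoryTheory.Limits

universe u

/-- **Torsion-free word-hyperbolic groups of dimension two without a proper action on a complete
CAT(0) space.** Infinitely many pairwise non-isomorphic word-hyperbolic groups, torsion-free, with a
finite aspherical presentation and of cohomological dimension exactly two, all of whose isometric
actions on complete CAT(0) or CAT(-1) spaces have an infinite point stabiliser. -/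
theorem result :
    ∃ (G : ℕ → Type) (_ : ∀ n, Group (G n)), (∀ m n, Nonempty (G m ≃* G n) → m = n) ∧
      ∀ n, IsHyperbolicGroup (G n) ∧ (∀ g : G n, IsOfFinOrder g → g = 1) ∧
        (∃ (A ι : Type) (_ : Finite A) (_ : Finite ι) (r : ι → FreeGroup A),
          Nonempty (G n ≃* PresentedGroup (Set.range r)) ∧ Aspherical r) ∧
        (∀ (M : Rep ℤ (G n)) (k : ℕ), 3 ≤ k → IsZero (groupCohomology M k)) ∧
        (∃ M : Rep ℤ (G n), ¬ IsZero (groupCohomology M 2)) ∧
        ∀ (X : Type u) [MetricSpace X] [MulAction (G n) X], Nonempty X → CompleteSpace X →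
          IsIsometricSMul (G n) X → IsCAT0 X ∨ IsCATNegOne X →
          (∃ x : X, Infinite (MulAction.stabilizer (G n) x)) ∧
            ¬ ProperlyDiscontinuousSMul (G n) X ∧ ¬ IsGeometric (G n) X :=
  family

end Vale.Agent.Results.P172.A0TorsionFree
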